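import Vale.Agent.Lib.P248.Main

/-! # P248: the symmetric Mahler inequality improves itself (tensor powers) -/

namespace Vale.Agent.Results.P248.TensorPower

open Vale.Agent.Lib.P248

theorem result :
    (∀ (n m : ℕ) (K : Set (Fin n → ℝ)), 1 ≤ n → 1 ≤ m → IsSymBody K →
      ∃ M : Set (Fin (m * n) → ℝ), IsSymBody M ∧
        volProd M * (m * n).factorial / 4 ^ (m * n) = (volProd K * n.factorial / 4 ^ n) ^ m) ∧
    (∀ c : ℕ → ℝ, (∀ θ : ℝ, 0 < θ → θ < 1 → ∀ᶠ N in Filter.atTop, θ ^ N ≤ c N) →
      (∀ (n : ℕ) (K : Set (Fin n → ℝ)), 1 ≤ n → IsSymBody K →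
        c n * (4 ^ n / n.factorial) ≤ volProd K) →
      ∀ (n : ℕ) (K : Set (Fin n → ℝ)), 1 ≤ n → IsSymBody K →
        4 ^ n / n.factorial ≤ volProd K) := by
  constructor
  · intro n m K hn hm hK
    obtain ⟨M, hM, hr⟩ := exists_power hn K hK m hm
    refine ⟨M, hM, ?_⟩
    simpa [ratio] using hr
  · intro c hc H n K hn hK
    have key : 1 ≤ ratio K := by
      refine one_le_ratio c hc ?_ n K hn hK
      intro n K hn hK
      have h := H n K hn hK
      have hf : (0 : ℝ) < n.factorial := by exact_mod_cast Nat.factorial_pos _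
      have h4 : (0 : ℝ) < 4 ^ n := by positivity
      unfold ratio
      rw [Fintype.card_fin, le_div_iff₀ h4]
      calc c n * 4 ^ n = c n * (4 ^ n / n.factorial) * n.factorial := by field_simp
        _ ≤ volProd K * n.factorial := mul_le_mul_of_nonneg_right h hf.le
    have hf : (0 : ℝ) < n.factorial := by exact_mod_cast Nat.factorial_pos _
    have h4 : (0 : ℝ) < 4 ^ n := by positivity
    unfold ratio at key
    rw [Fintype.card_fin, le_div_iff₀ h4, one_mul] at key
    rw [div_le_iff₀ hf]
    exact key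

end Vale.Agent.Results.P248.TensorPower
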